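import Vale.Agent.P299.H908.Lie.Curve
import Vale.Agent.P299.H954.IX.Defs

/-!
# P299 / H908, INDEX-LIE: the Lie derivative of invariant forms and of the metric
-/

set_option linter.all false

open scoped Manifold ContDiff ComplexOrder Topology Matrix ComplexConjugate
open Set MeasureTheory Filter Metric
open Vale.Agent.P272.K Vale.Agent.P272.K.C2 Vale.Agent.P299.IX Vale.Agent.P299.IX.Fock
open Vale.Agent.P299.D Vale.Agent.P299.H582

noncomputable section

namespace Vale.Agent.P299.H908.Lie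

variable {n r : ℕ} {Z : Type} [TopologicalSpace Z] [ChartedSpace (Cm n) Z]
  {w : FormM n Z} (T : TorusAct r n Z w)

section

variable {e : Chart n Z} {x : Z}

lemma hasDerivAt_smul (ξ : Fin r → ℝ) : HasDerivAt (fun s : ℝ => s • ξ) ξ 0 := by
  simpa using (hasDerivAt_id (0 : ℝ)).smul_const ξ

/-- the orbit -/
lemma hasDerivAt_orbit (h : At e x) (ξ : Fin r → ℝ) :
    HasDerivAt (fun s : ℝ => e (T.a (s • ξ) x)) (vf T ξ e (e x)) 0 := by
  have h3 : DifferentiableAt ℝ (fun t : Fin r → ℝ => e (T.a t x)) 0 := by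
    have h4 := (act_smooth T h h).differentiableAt (by simp)
    have h5 := hasFDerivAt_slice h4
    simp only [h.left_inv] at h5
    exact h5.differentiableAt
  have h4 : HasFDerivAt (fun t : Fin r → ℝ => e (T.a t x))
      (fderiv ℝ (fun t : Fin r → ℝ => e (T.a t x)) 0) ((0 : ℝ) • ξ) := by
    rw [zero_smul]
    exact h3.hasFDerivAt
  have h5 := h4.comp_hasDerivAt (0 : ℝ) (hasDerivAt_smul ξ)
  have h6 : vf T ξ e (e x) = fderiv ℝ (fun t : Fin r → ℝ => e (T.a t x)) 0 ξ := by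
    unfold vf
    simp only [h.left_inv]
  rw [h6]
  exact h5

/-- `At` along the orbit -/
lemma eventually_at (h : At e x) (ξ : Fin r → ℝ) : ∀ᶠ s : ℝ in 𝓝 0, At e (T.a (s • ξ) x) := by
  have h1 : ∀ᶠ t in 𝓝 (0 : Fin r → ℝ), T.a t x ∈ e.source := by
    refine (continuous_orbit T x).continuousAt.eventually_mem (e.open_source.mem_nhds ?_)
    rw [T.zero]
    exact h.2
  have h2 : Tendsto (fun s : ℝ => s • ξ) (𝓝 0) (𝓝 (0 : Fin r → ℝ)) := by
    have := (hasDerivAt_smul ξ).continuousAt.tendsto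
    rwa [zero_smul] at this
  filter_upwards [h2.eventually h1] with s hs
  exact ⟨h.1, hs⟩

/-- derivative along the orbit of a function in the chart -/
lemma hasDerivAt_along {F : Cm n → ℂ} (h : At e x) (hF : DifferentiableAt ℝ F (e x))
    (ξ : Fin r → ℝ) : HasDerivAt (fun s : ℝ => F (e (T.a (s • ξ) x)))
      (∑ l, (vf T ξ e (e x) l * dz l F (e x) + conj (vf T ξ e (e x) l) * dzb l F (e x))) 0 := by
  have h1 : HasFDerivAt F (fderiv ℝ F (e x)) (e (T.a ((0 : ℝ) • ξ) x)) := by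
    rw [zero_smul, T.zero]
    exact hF.hasFDerivAt
  have h2 := h1.comp_hasDerivAt (0 : ℝ) (hasDerivAt_orbit T h ξ)
  rw [INT.fderiv_apply] at h2
  exact h2

variable [IsManifold 𝓘(ℂ, Cm n) ω Z]

/-- the matrix `∂_b v^p` -/
def Bv (v : Cm n → Cm n) (z : Cm n) : Matrix (Fin n) (Fin n) ℂ :=
  Matrix.of fun p b => dz b (fun y => v y p) z

/-- derivative of the Jacobian matrix of the action -/
lemma hasDerivAt_jac (h : At e x) (ξ : Fin r → ℝ) (p b : Fin n) :
    HasDerivAt (fun s : ℝ => jacF (T.a (s • ξ)) e e x p b) (Bv (vf T ξ e) (e x) p b) 0 := by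
  set Φ : (Fin r → ℝ) × Cm n → ℂ := fun q => e (T.a q.1 (e.symm q.2)) p with hΦdef
  have hsm : ∀ᶠ q in 𝓝 ((0 : Fin r → ℝ), e x), ContDiffAt ℝ ∞ Φ q := by
    filter_upwards [act_smooth_nhds T h h] with q hq
    exact contDiffAt_pi.1 hq p
  have hho := act_holo_nhds T h h p
  have hΦ : ContDiffAt ℝ ∞ Φ (0, e x) := hsm.self_of_nhds
  have hd : ContDiffAt ℝ ∞ (fderiv ℝ Φ) (0, e x) := hΦ.fderiv_right (m := ∞) (by simp)
  have hdd : HasFDerivAt (fderiv ℝ Φ) (fderiv ℝ (fderiv ℝ Φ) (0, e x)) (0, e x) :=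
    (hd.differentiableAt (by simp)).hasFDerivAt
  have hsymm : IsSymmSndFDerivAt ℝ Φ (0, e x) := hΦ.isSymmSndFDerivAt (by
    simp only [minSmoothness_of_isRCLikeNormedField]; exact WithTop.coe_le_coe.2 le_top)
  -- the curve `s ↦ (s ξ, e x)`
  have hc : HasDerivAt (fun s : ℝ => ((s • ξ, e x) : (Fin r → ℝ) × Cm n)) (ξ, 0) 0 :=
    (hasDerivAt_smul ξ).prodMk (hasDerivAt_const 0 (e x))
  have hc0 : ((0 : ℝ) • ξ, e x) = ((0 : Fin r → ℝ), e x) := by rw [zero_smul]
  have hct : Tendsto (fun s : ℝ => ((s • ξ, e x) : (Fin r → ℝ) × Cm n)) (𝓝 0) (𝓝 (0, e x)) := by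
    have := hc.continuousAt.tendsto
    rwa [hc0] at this
  -- the Jacobian through `Φ`
  have h1 : (fun s : ℝ => jacF (T.a (s • ξ)) e e x p b) =ᶠ[𝓝 0]
      fun s : ℝ => fderiv ℝ Φ (s • ξ, e x) (0, Pi.single b 1) := by
    filter_upwards [hct.eventually hsm, hct.eventually hho] with s hs hs'
    have h2 : DifferentiableAt ℝ Φ (s • ξ, e x) := hs.differentiableAt (by simp)
    rw [fderiv_snd_eq h2]
    show dz b (fun z => e (T.a (s • ξ) (e.symm z)) p) (e x) = _
    rw [INT.dz_of_holo hs']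
    have h3 : fderiv ℝ (fun z => Φ (s • ξ, z)) (e x) =
        (fderiv ℂ (fun z => Φ (s • ξ, z)) (e x)).restrictScalars ℝ :=
      (hs'.hasFDerivAt.restrictScalars ℝ).fderiv
    show _ = fderiv ℝ (fun z => Φ (s • ξ, z)) (e x) _
    rw [h3]
    rfl
  have h2 : HasDerivAt (fun s : ℝ => fderiv ℝ Φ (s • ξ, e x) (0, Pi.single b 1))
      (fderiv ℝ (fderiv ℝ Φ) (0, e x) (ξ, 0) (0, Pi.single b 1)) 0 := by
    have h3 : HasFDerivAt (fun q => fderiv ℝ Φ q (0, Pi.single b 1))
        ((ContinuousLinearMap.apply ℝ ℂ ((0, Pi.single b 1) : (Fin r → ℝ) × Cm n)).comp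
        (fderiv ℝ (fderiv ℝ Φ) (0, e x))) ((0 : ℝ) • ξ, e x) := by
      rw [hc0]
      exact (ContinuousLinearMap.apply ℝ ℂ
        ((0, Pi.single b 1) : (Fin r → ℝ) × Cm n)).hasFDerivAt.comp (0, e x) hdd
    exact h3.comp_hasDerivAt (0 : ℝ) hc
  have h4 : fderiv ℝ (fderiv ℝ Φ) (0, e x) (ξ, 0) (0, Pi.single b 1) =
      Bv (vf T ξ e) (e x) p b := by
    rw [hsymm.eq]
    have h5 : HasFDerivAt (fun z => fderiv ℝ Φ (0, z) (ξ, 0))
        (((ContinuousLinearMap.apply ℝ ℂ ((ξ, 0) : (Fin r → ℝ) × Cm n)).comp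
          (fderiv ℝ (fderiv ℝ Φ) (0, e x))).comp
          (ContinuousLinearMap.inr ℝ (Fin r → ℝ) (Cm n))) (e x) := by
      have h6 : HasFDerivAt (fun q => fderiv ℝ Φ q (ξ, 0))
          ((ContinuousLinearMap.apply ℝ ℂ ((ξ, 0) : (Fin r → ℝ) × Cm n)).comp
          (fderiv ℝ (fderiv ℝ Φ) (0, e x))) (0, e x) :=
        (ContinuousLinearMap.apply ℝ ℂ ((ξ, 0) : (Fin r → ℝ) × Cm n)).hasFDerivAt.comp
          (0, e x) hdd
      exact h6.comp (e x) (hasFDerivAt_prodMk_right 0 (e x))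
    have h7 : fderiv ℝ (fun z => vf T ξ e z p) (e x) =
        fderiv ℝ (fun z => fderiv ℝ Φ (0, z) (ξ, 0)) (e x) := (vf_eventuallyEq T h ξ p).fderiv_eq
    have h8 : fderiv ℝ (fun z => vf T ξ e z p) (e x) (Pi.single b 1) =
        fderiv ℝ (fderiv ℝ Φ) (0, e x) (0, Pi.single b 1) (ξ, 0) := by
      rw [h7, h5.fderiv]
      rfl
    rw [← h8, INT.fderiv_ev, INT.dzb_of_holo, add_zero]
    · rfl
    · exact (differentiableAt_pi.1 (vf_analytic T h ξ).differentiableAt p)
  rw [← h4]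
  exact h2.congr_of_eventuallyEq h1

omit [IsManifold 𝓘(ℂ, Cm n) ω Z] in
lemma jac_zero (h : At e x) : jacF (T.a 0) e e x = 1 := by
  ext p b
  show dz b (fun z => e (T.a 0 (e.symm z)) p) (e x) = _
  have h1 : (fun z => e (T.a 0 (e.symm z)) p) =ᶠ[𝓝 (e x)] fun z => z p := by
    filter_upwards [h.nhds_target] with z hz
    rw [T.zero, e.right_inv hz]
  rw [INT.dz_congr h1]
  have h2 : DifferentiableAt ℂ (fun z : Cm n => z p) (e x) := differentiableAt_apply p (e x)
  rw [INT.dz_of_holo h2]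
  have h3 : fderiv ℂ (fun z : Cm n => z p) (e x) = ContinuousLinearMap.proj p :=
    (ContinuousLinearMap.proj (R := ℂ) (φ := fun _ : Fin n => ℂ) p).fderiv
  rw [h3]
  simp [Matrix.one_apply, Pi.single_apply]

end

variable [IsManifold 𝓘(ℂ, Cm n) ω Z]

/-- the derivative of a vector valued function along `v` -/
def along {ι : Type*} (v : Cm n → Cm n) (a : Cm n → ι → ℂ) (z : Cm n) : ι → ℂ :=
  ∑ l, (v z l • DV l a z + conj (v z l) • DVb l a z)

/-- **(L1)** -/
theorem lie_inv {k : ℕ} {u : Frm n Z} (hu : IX.IsSec k u)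
    (hinv : ∀ t e e' x, At e x → At e' (T.a t x) → (jacF (T.a t) e e' x).det ^ k • u e (e x) =
      lam (jacF (T.a t) e e' x)ᵀ *ᵥ u e' (e' (T.a t x)))
    (ξ : Fin r → ℝ) {e : Chart n Z} {x : Z} (h : At e x) :
    ∑ l, (vf T ξ e (e x) l • DV l (u e) (e x) + conj (vf T ξ e (e x) l) • DVb l (u e) (e x)) +
      dlam (Bv (vf T ξ e) (e x))ᵀ *ᵥ u e (e x) -
      ((k : ℂ) * (Bv (vf T ξ e) (e x)).trace) • u e (e x) = 0 := by
  ext I
  set v := vf T ξ e (e x) with hv
  set B := Bv (vf T ξ e) (e x) with hB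
  set J : ℝ → Matrix (Fin n) (Fin n) ℂ := fun s => jacF (T.a (s • ξ)) e e x with hJ
  have hJ0 : J 0 = 1 := by
    show jacF (T.a ((0 : ℝ) • ξ)) e e x = 1
    rw [zero_smul]
    exact jac_zero T h
  have hJ' : ∀ i j, HasDerivAt (fun s => J s i j) (B i j) 0 := fun i j => hasDerivAt_jac T h ξ i j
  have h1 : HasDerivAt (fun s => (J s).det ^ k * u e (e x) I)
      ((k : ℂ) * B.trace * u e (e x) I) 0 := by
    have := ((hasDerivAt_det hJ' hJ0).pow k).mul_const (u e (e x) I)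
    rw [hJ0, Matrix.det_one, one_pow, mul_one] at this
    exact this
  have h2 : HasDerivAt (fun s => ∑ K, lam (J s)ᵀ I K * u e (e (T.a (s • ξ) x)) K)
      (∑ K, (dlam Bᵀ I K * u e (e x) K + (1 : Matrix (FI n) (FI n) ℂ) I K *
        ∑ l, (v l * dz l (fun y => u e y K) (e x) +
          conj (v l) * dzb l (fun y => u e y K) (e x)))) 0 := by
    refine HasDerivAt.fun_sum fun K _ => ?_
    have h3 := hasDerivAt_lam (M := fun s => (J s)ᵀ) (M' := Bᵀ) (fun i j => hJ' j i)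
      (by show (J 0)ᵀ = 1; rw [hJ0, Matrix.transpose_one]) I K
    have h4 := hasDerivAt_along T (F := fun y => u e y K) h
      ((hu.smooth e x h K).differentiableAt (by simp)) ξ
    have h5 := h3.mul h4
    have h6 : e (T.a ((0 : ℝ) • ξ) x) = e x := by rw [zero_smul, T.zero]
    have h7 : lam (J 0)ᵀ I K = (1 : Matrix (FI n) (FI n) ℂ) I K := by
      rw [hJ0, Matrix.transpose_one, lam_one]
    rw [h6, h7] at h5
    exact h5
  have h3 : (fun s => (J s).det ^ k * u e (e x) I) =ᶠ[𝓝 0]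
      fun s => ∑ K, lam (J s)ᵀ I K * u e (e (T.a (s • ξ) x)) K := by
    filter_upwards [eventually_at T h ξ] with s hs
    have h4 := congrFun (hinv (s • ξ) e e x h hs) I
    exact h4
  have h4 := h1.unique (h2.congr_of_eventuallyEq h3)
  rw [Finset.sum_add_distrib] at h4
  have h5 : ∑ K, (1 : Matrix (FI n) (FI n) ℂ) I K *
        ∑ l, (v l * dz l (fun y => u e y K) (e x) +
          conj (v l) * dzb l (fun y => u e y K) (e x)) =
      ∑ l, (v l * dz l (fun y => u e y I) (e x) +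
          conj (v l) * dzb l (fun y => u e y I) (e x)) := by
    rw [Finset.sum_eq_single I]
    · rw [Matrix.one_apply_eq, one_mul]
    · intro K _ hK
      rw [Matrix.one_apply_ne hK.symm, zero_mul]
    · simp
  rw [h5] at h4
  have h6 : (∑ l, (v l • DV l (u e) (e x) + conj (v l) • DVb l (u e) (e x))) I =
      ∑ l, (v l * dz l (fun y => u e y I) (e x) +
          conj (v l) * dzb l (fun y => u e y I) (e x)) := by
    rw [Finset.sum_apply]
    rfl
  have h7 : (dlam Bᵀ *ᵥ u e (e x)) I = ∑ K, dlam Bᵀ I K * u e (e x) K := rfl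
  rw [Pi.sub_apply, Pi.add_apply, h6, h7, Pi.smul_apply, smul_eq_mul, Pi.zero_apply, h4]
  ring

/-- **(L2)** -/
theorem lie_met (hw : IsForm w) (hsm : ∀ e x, At e x → MC 1 (w e) (e x)) (ξ : Fin r → ℝ)
    {e : Chart n Z} {x : Z} (h : At e x) :
    ∑ l, (vf T ξ e (e x) l • DM l (w e) (e x) + conj (vf T ξ e (e x) l) • DMb l (w e) (e x)) +
      (Bv (vf T ξ e) (e x))ᵀ * w e (e x) +
      w e (e x) * (Bv (vf T ξ e) (e x)).map (starRingEnd ℂ) = 0 := by
  ext i j
  set v := vf T ξ e (e x) with hv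
  set B := Bv (vf T ξ e) (e x) with hB
  set J : ℝ → Matrix (Fin n) (Fin n) ℂ := fun s => jacF (T.a (s • ξ)) e e x with hJ
  have hJ0 : J 0 = 1 := by
    show jacF (T.a ((0 : ℝ) • ξ)) e e x = 1
    rw [zero_smul]
    exact jac_zero T h
  have hJ' : ∀ i j, HasDerivAt (fun s => J s i j) (B i j) 0 := fun i j => hasDerivAt_jac T h ξ i j
  have h6 : e (T.a ((0 : ℝ) • ξ) x) = e x := by rw [zero_smul, T.zero]
  have h2 : HasDerivAt (fun s => ∑ q, (∑ p, J s p i * w e (e (T.a (s • ξ) x)) p q) *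
        conj (J s q j))
      (∑ q, ((∑ p, (B p i * w e (e x) p q + (1 : Matrix (Fin n) (Fin n) ℂ) p i *
        ∑ l, (v l * dz l (fun y => w e y p q) (e x) +
          conj (v l) * dzb l (fun y => w e y p q) (e x)))) *
          conj ((1 : Matrix (Fin n) (Fin n) ℂ) q j) +
        (∑ p, (1 : Matrix (Fin n) (Fin n) ℂ) p i * w e (e x) p q) * conj (B q j))) 0 := by
    refine HasDerivAt.fun_sum fun q _ => ?_
    have h4 : HasDerivAt (fun s => ∑ p, J s p i * w e (e (T.a (s • ξ) x)) p q)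
        (∑ p, (B p i * w e (e x) p q + (1 : Matrix (Fin n) (Fin n) ℂ) p i *
        ∑ l, (v l * dz l (fun y => w e y p q) (e x) +
          conj (v l) * dzb l (fun y => w e y p q) (e x)))) 0 := by
      refine HasDerivAt.fun_sum fun p _ => ?_
      have h5 := hasDerivAt_along T (F := fun y => w e y p q) h
        ((hsm e x h p q).differentiableAt (by simp)) ξ
      have h7 := (hJ' p i).mul h5
      rw [h6, hJ0] at h7
      exact h7
    have h5 : HasDerivAt (fun s => conj (J s q j)) (conj (B q j)) 0 := by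
      have := (Complex.conjCLE : ℂ ≃L[ℝ] ℂ).hasFDerivAt.comp_hasDerivAt (0 : ℝ) (hJ' q j)
      exact this
    have h7 := h4.mul h5
    rw [h6, hJ0] at h7
    exact h7
  have h3 : (fun s : ℝ => w e (e x) i j) =ᶠ[𝓝 0]
      fun s => ∑ q, (∑ p, J s p i * w e (e (T.a (s • ξ) x)) p q) * conj (J s q j) := by
    filter_upwards [eventually_at T h ξ] with s hs
    have h4 := H956.pullM_eq hw (T.hol (s • ξ)).contMDiffAt h hs
    rw [T.iso (s • ξ) e x h] at h4
    have h5 := congrFun (congrFun h4 i) j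
    rw [h5, Matrix.mul_apply]
    refine Finset.sum_congr rfl fun q _ => ?_
    rw [Matrix.mul_apply, Matrix.map_apply]
    rfl
  have h4 := (hasDerivAt_const (0 : ℝ) (w e (e x) i j)).unique (h2.congr_of_eventuallyEq h3)
  have h7 : ∀ q, conj ((1 : Matrix (Fin n) (Fin n) ℂ) q j) =
      (1 : Matrix (Fin n) (Fin n) ℂ) q j := by
    intro q
    rw [Matrix.one_apply]
    split_ifs <;> simp
  simp only [h7, Finset.sum_add_distrib] at h4
  have h8 : ∀ (F : Fin n → ℂ), ∑ p, (1 : Matrix (Fin n) (Fin n) ℂ) p i * F p = F i := by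
    intro F
    rw [Finset.sum_eq_single i]
    · rw [Matrix.one_apply_eq, one_mul]
    · intro p _ hp
      rw [Matrix.one_apply_ne hp, zero_mul]
    · simp
  have h9 : ∀ (F : Fin n → ℂ), ∑ q, F q * (1 : Matrix (Fin n) (Fin n) ℂ) q j = F j := by
    intro F
    rw [Finset.sum_eq_single j]
    · rw [Matrix.one_apply_eq, mul_one]
    · intro p _ hp
      rw [Matrix.one_apply_ne hp, mul_zero]
    · simp
  simp only [h8, h9] at h4
  rw [Matrix.add_apply, Matrix.add_apply, Matrix.sum_apply, Matrix.mul_apply, Matrix.mul_apply,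
    Matrix.zero_apply, h4]
  have h10 : ∑ l, (v l • DM l (w e) (e x) + conj (v l) • DMb l (w e) (e x)) i j =
      ∑ l, (v l * dz l (fun y => w e y i j) (e x) +
        conj (v l) * dzb l (fun y => w e y i j) (e x)) := rfl
  rw [h10, Finset.sum_add_distrib]
  simp only [Matrix.transpose_apply, Matrix.map_apply]
  ring

/-! ### combinations of the generating fields -/

omit [IsManifold 𝓘(ℂ, Cm n) ω Z] in
lemma vf_comb (f : Fin r → ℝ) (e : Chart n Z) (z : Cm n) :
    ∑ a, (f a : ℂ) • vf T (Pi.single a 1) e z = vf T f e z := by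
  rw [vf_sum T f]
  rfl

/-- the matrix `∂v` of `v = ∑ f_a v_a` at a point where the `df_a` vanish -/
lemma Bv_comb {f : Fin r → Cm n → ℝ} {e : Chart n Z} {x : Z} (h : At e x)
    (hf : ∀ a, DifferentiableAt ℝ (f a) (e x))
    (hf0 : ∀ a b, dz b (fun y => (f a y : ℂ)) (e x) = 0) :
    Bv (fun y => ∑ a, (f a y : ℂ) • vf T (Pi.single a 1) e y) (e x) =
      Bv (vf T (fun a => f a (e x)) e) (e x) := by
  have hd : ∀ (ξ : Fin r → ℝ) p, DifferentiableAt ℝ (fun y => vf T ξ e y p) (e x) := fun ξ p =>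
    differentiableAt_pi.1 ((vf_smooth T h ξ).differentiableAt (by simp)) p
  have hfc : ∀ a, DifferentiableAt ℝ (fun y => (f a y : ℂ)) (e x) := fun a =>
    Complex.ofRealCLM.differentiableAt.comp (e x) (hf a)
  have h1 : ∀ (c : Fin r → ℝ) p b, dz b (fun y => vf T c e y p) (e x) =
      ∑ a, (c a : ℂ) * dz b (fun y => vf T (Pi.single a 1) e y p) (e x) := by
    intro c p b
    have h2 : (fun y => vf T c e y p) =
        fun y => ∑ a, (c a : ℂ) * vf T (Pi.single a 1) e y p := by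
      funext y
      rw [← vf_comb T c e y, Finset.sum_apply]
      rfl
    rw [h2, dz_sum b Finset.univ fun a _ => (hd _ p).const_mul _]
    exact Finset.sum_congr rfl fun a _ => dz_const_mul b _ (hd _ p)
  ext p b
  show dz b (fun y => (∑ a, (f a y : ℂ) • vf T (Pi.single a 1) e y) p) (e x) =
    dz b (fun y => vf T (fun a => f a (e x)) e y p) (e x)
  rw [h1]
  have h2 : (fun y => (∑ a, (f a y : ℂ) • vf T (Pi.single a 1) e y) p) =
      fun y => ∑ a, (f a y : ℂ) * vf T (Pi.single a 1) e y p := by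
    funext y
    rw [Finset.sum_apply]
    rfl
  rw [h2, dz_sum b Finset.univ fun a _ => (hfc a).fun_mul (hd _ p)]
  refine Finset.sum_congr rfl fun a _ => ?_
  rw [dz_mul b (hfc a) (hd _ p), hf0, zero_mul, zero_add]

/-- **(L1)** for combinations, at a critical point of the coefficients where `v = 0` -/
theorem lie_inv_zero {k : ℕ} {u : Frm n Z} (hu : IX.IsSec k u)
    (hinv : ∀ t e e' x, At e x → At e' (T.a t x) → (jacF (T.a t) e e' x).det ^ k • u e (e x) =
      lam (jacF (T.a t) e e' x)ᵀ *ᵥ u e' (e' (T.a t x)))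
    {f : Fin r → Cm n → ℝ} {e : Chart n Z} {x : Z} (h : At e x)
    (hf : ∀ a, DifferentiableAt ℝ (f a) (e x))
    (hf0 : ∀ a b, dz b (fun y => (f a y : ℂ)) (e x) = 0)
    (hv : ∑ a, (f a (e x) : ℂ) • vf T (Pi.single a 1) e (e x) = 0) :
    dlam (Bv (fun y => ∑ a, (f a y : ℂ) • vf T (Pi.single a 1) e y) (e x))ᵀ *ᵥ u e (e x) =
      ((k : ℂ) * (Bv (fun y => ∑ a, (f a y : ℂ) • vf T (Pi.single a 1) e y) (e x)).trace) •
        u e (e x) := by
  have h1 := lie_inv T hu hinv (fun a => f a (e x)) h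
  rw [← vf_comb T (fun a => f a (e x)), hv] at h1
  rw [Bv_comb T h hf hf0]
  have h2 : ∑ l, ((0 : Cm n) l • DV l (u e) (e x) +
      conj ((0 : Cm n) l) • DVb l (u e) (e x)) = 0 := by
    refine Finset.sum_eq_zero fun l _ => ?_
    simp
  rw [h2, zero_add] at h1
  exact sub_eq_zero.1 h1

/-- **(L2)** for combinations, at a critical point of the coefficients where `v = 0` -/
theorem lie_met_zero (hw : IsForm w) (hsm : ∀ e x, At e x → MC 1 (w e) (e x))
    {f : Fin r → Cm n → ℝ} {e : Chart n Z} {x : Z} (h : At e x)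
    (hf : ∀ a, DifferentiableAt ℝ (f a) (e x))
    (hf0 : ∀ a b, dz b (fun y => (f a y : ℂ)) (e x) = 0)
    (hv : ∑ a, (f a (e x) : ℂ) • vf T (Pi.single a 1) e (e x) = 0) :
    (Bv (fun y => ∑ a, (f a y : ℂ) • vf T (Pi.single a 1) e y) (e x))ᵀ * w e (e x) +
      w e (e x) * (Bv (fun y => ∑ a, (f a y : ℂ) • vf T (Pi.single a 1) e y) (e x)).map star =
        0 := by
  have h1 := lie_met T hw hsm (fun a => f a (e x)) h
  rw [← vf_comb T (fun a => f a (e x)), hv] at h1
  rw [Bv_comb T h hf hf0]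
  have h2 : ∑ l, ((0 : Cm n) l • DM l (w e) (e x) +
      conj ((0 : Cm n) l) • DMb l (w e) (e x)) = 0 := by
    refine Finset.sum_eq_zero fun l _ => ?_
    simp
  rw [h2, zero_add] at h1
  exact h1

/-- **(L2)** for Kähler metrics -/
theorem lie_met_kahler (hw : IsKahler w) (ξ : Fin r → ℝ) {e : Chart n Z} {x : Z} (h : At e x) :
    ∑ l, (vf T ξ e (e x) l • DM l (w e) (e x) + conj (vf T ξ e (e x) l) • DMb l (w e) (e x)) +
      (Bv (vf T ξ e) (e x))ᵀ * w e (e x) +
      w e (e x) * (Bv (vf T ξ e) (e x)).map star = 0 :=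
  lie_met T hw.toIsHermitian.isForm (fun e x h i j => (hw.smooth e x h i j).of_le (by simp)) ξ h

/-- **(L2)** for combinations, Kähler metrics -/
theorem lie_met_zero_kahler (hw : IsKahler w)
    {f : Fin r → Cm n → ℝ} {e : Chart n Z} {x : Z} (h : At e x)
    (hf : ∀ a, DifferentiableAt ℝ (f a) (e x))
    (hf0 : ∀ a b, dz b (fun y => (f a y : ℂ)) (e x) = 0)
    (hv : ∑ a, (f a (e x) : ℂ) • vf T (Pi.single a 1) e (e x) = 0) :
    (Bv (fun y => ∑ a, (f a y : ℂ) • vf T (Pi.single a 1) e y) (e x))ᵀ * w e (e x) +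
      w e (e x) * (Bv (fun y => ∑ a, (f a y : ℂ) • vf T (Pi.single a 1) e y) (e x)).map star =
        0 :=
  lie_met_zero T hw.toIsHermitian.isForm (fun e x h i j => (hw.smooth e x h i j).of_le (by simp))
    h hf hf0 hv

end Vale.Agent.P299.H908.Lie
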