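import Vale.Agent.P299.H835.IX.FockD
import Vale.Agent.P299.H582.Kir.Vf

/-!
# P299 / H908, INDEX-LIE: derivatives along curves
-/

set_option linter.all false

open scoped Manifold ContDiff ComplexOrder Topology Matrix ComplexConjugate
open Set MeasureTheory Filter Metric
open Vale.Agent.P272.K Vale.Agent.P272.K.C2 Vale.Agent.P299.IX Vale.Agent.P299.IX.Fock
open Vale.Agent.P299.D

noncomputable section

namespace Vale.Agent.P299.H908.Lie

variable {n : ℕ}

section curve

lemma hasFDerivAt_re0 (y : Cm 1) :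
    HasFDerivAt (fun y : Cm 1 => (y 0).re)
      (Complex.reCLM.comp (ContinuousLinearMap.proj (R := ℝ) (φ := fun _ : Fin 1 => ℂ) 0)) y :=
  (Complex.reCLM.comp
    (ContinuousLinearMap.proj (R := ℝ) (φ := fun _ : Fin 1 => ℂ) 0)).hasFDerivAt

lemma hasFDerivAt_cv {g : ℝ → ℂ} {g' : ℂ} (hg : HasDerivAt g g' 0) :
    HasFDerivAt (fun y : Cm 1 => g (y 0).re)
      ((ContinuousLinearMap.smulRight (1 : ℝ →L[ℝ] ℝ) g').comp
        (Complex.reCLM.comp (ContinuousLinearMap.proj (R := ℝ) (φ := fun _ : Fin 1 => ℂ) 0)))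
      (0 : Cm 1) := by
  have h1 : HasFDerivAt g (ContinuousLinearMap.smulRight (1 : ℝ →L[ℝ] ℝ) g')
      (((0 : Cm 1) 0).re) := hg.hasFDerivAt
  exact h1.comp (0 : Cm 1) (hasFDerivAt_re0 0)

lemma dz_cv {g : ℝ → ℂ} {g' : ℂ} (hg : HasDerivAt g g' 0) :
    dz (0 : Fin 1) (fun y : Cm 1 => g (y 0).re) 0 = g' / 2 := by
  unfold dz
  rw [(hasFDerivAt_cv hg).fderiv]
  simp

lemma differentiableAt_of_cv {g : ℝ → ℂ}
    (hg : DifferentiableAt ℝ (fun y : Cm 1 => g (y 0).re) 0) : DifferentiableAt ℝ g 0 := by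
  have h1 : DifferentiableAt ℝ (fun s : ℝ => (fun _ => (s : ℂ) : Cm 1)) 0 := by
    rw [differentiableAt_pi]
    exact fun _ => Complex.ofRealCLM.differentiableAt
  have h2 : (fun _ => ((0 : ℝ) : ℂ) : Cm 1) = 0 := by
    funext i
    simp
  have h3 : DifferentiableAt ℝ (fun y : Cm 1 => g (y 0).re) (fun _ => ((0 : ℝ) : ℂ)) := by
    rw [h2]; exact hg
  have h4 := DifferentiableAt.comp (0 : ℝ) h3 h1
  have h5 : ((fun y : Cm 1 => g (y 0).re) ∘ fun s : ℝ => (fun _ => (s : ℂ) : Cm 1)) = g := by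
    funext s
    simp
  rwa [h5] at h4

/-- derivative of `lam` along a curve through `1` -/
lemma hasDerivAt_lam {M : ℝ → Matrix (Fin n) (Fin n) ℂ} {M' : Matrix (Fin n) (Fin n) ℂ}
    (h : ∀ i j, HasDerivAt (fun s => M s i j) (M' i j) 0) (h0 : M 0 = 1) (K I : FI n) :
    HasDerivAt (fun s => lam (M s) K I) (dlam M' K I) 0 := by
  have h1 : MD (fun y : Cm 1 => M (y 0).re) 0 := fun i j => (hasFDerivAt_cv (h i j)).differentiableAt
  have hd : DifferentiableAt ℝ (fun s => lam (M s) K I) 0 :=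
    differentiableAt_of_cv (MD_lam h1 K I)
  have h2 : DM (0 : Fin 1) (fun y : Cm 1 => M (y 0).re) 0 = (1 / 2 : ℂ) • M' := by
    ext i j
    rw [DM_apply, dz_cv (h i j), Matrix.smul_apply, smul_eq_mul]
    ring
  have h3 := DM_lam' (k := 0) h1 (B := (1 / 2 : ℂ) • M') (by
    rw [h2]
    show _ * M (((0 : Cm 1) 0).re) = _
    have : (((0 : Cm 1) 0).re) = 0 := by simp
    rw [this, h0, Matrix.mul_one])
  have h4 := congrFun (congrFun h3 K) I
  rw [DM_apply, dz_cv (g := fun s => lam (M s) K I) hd.hasDerivAt] at h4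
  have h5 : lam (M (((0 : Cm 1) 0).re)) = 1 := by
    have : (((0 : Cm 1) 0).re) = 0 := by simp
    rw [this, h0, lam_one]
  rw [h5, Matrix.mul_one, dlam_smul, Matrix.smul_apply, smul_eq_mul] at h4
  have h6 : deriv (fun s => lam (M s) K I) 0 = dlam M' K I := by linear_combination 2 * h4
  rw [← h6]
  exact hd.hasDerivAt

/-- derivative of the determinant along a curve through `1` -/
lemma hasDerivAt_det {M : ℝ → Matrix (Fin n) (Fin n) ℂ} {M' : Matrix (Fin n) (Fin n) ℂ}
    (h : ∀ i j, HasDerivAt (fun s => M s i j) (M' i j) 0) (h0 : M 0 = 1) :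
    HasDerivAt (fun s => (M s).det) M'.trace 0 := by
  have hd : DifferentiableAt ℝ (fun s => (M s).det) 0 :=
    INT.differentiableAt_det fun i j => (h i j).differentiableAt
  have h1 := INT.fderiv_det (M := M) (z := 0) (fun i j => (h i j).differentiableAt) 1
  rw [fderiv_eq_smul_deriv, one_smul] at h1
  have h2 : deriv (fun s => (M s).det) 0 = M'.trace := by
    rw [h1, Matrix.trace]
    refine Finset.sum_congr rfl fun i _ => ?_
    have h3 : (fun l => fderiv ℝ (fun y => M y i l) 0 1) = M' i := by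
      funext l
      rw [fderiv_eq_smul_deriv, one_smul, (h i l).deriv]
    rw [h3, h0, ← Matrix.cramer_transpose_apply, Matrix.transpose_one, Matrix.cramer_one]
    rfl
  rw [← h2]
  exact hd.hasDerivAt

end curve

end Vale.Agent.P299.H908.Lie
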